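import Mathlib

/-! # P058: transitive and subtransitive finite sets are spherical -/

namespace P058
open Finset

/-- Euclidean `n`-space. -/
abbrev En (n : ℕ) := EuclideanSpace ℝ (Fin n)

/-- The isometries of `ℝ^n` mapping `X` onto itself act transitively on `X`. -/
def Transitive {n : ℕ} (X : Finset (En n)) : Prop :=
  ∀ x ∈ X, ∀ y ∈ X, ∃ f : En n ≃ᵢ En n, f '' (X : Set (En n)) = X ∧ f x = y

/-- `A` is congruent to a subset of a finite transitive set. -/
def Subtransitive {d : ℕ} (A : Finset (En d)) : Prop :=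
  ∃ (n : ℕ) (X : Finset (En n)) (g : En d → En n), Transitive X ∧
    (∀ a ∈ A, ∀ b ∈ A, dist (g a) (g b) = dist a b) ∧ ∀ a ∈ A, g a ∈ X

/-- `A` has a congruent copy on a sphere of some Euclidean space. -/
def Spherical {d : ℕ} (A : Finset (En d)) : Prop :=
  ∃ (n : ℕ) (g : En d → En n) (z : En n) (ρ : ℝ),
    (∀ a ∈ A, ∀ b ∈ A, dist (g a) (g b) = dist a b) ∧ ∀ a ∈ A, dist (g a) z = ρ

/-- the centroid -/
noncomputable def cen {n : ℕ} (X : Finset (En n)) : En n := (X.card : ℝ)⁻¹ • ∑ x ∈ X, x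

/-- parallel axis identity -/
theorem sum_sq {n : ℕ} (X : Finset (En n)) (hX : X.Nonempty) (z : En n) :
    ∑ x ∈ X, dist z x ^ 2 = ∑ x ∈ X, dist (cen X) x ^ 2 + X.card * dist z (cen X) ^ 2 := by
  have hN : (X.card : ℝ) ≠ 0 := by
    exact_mod_cast (Finset.card_pos.2 hX).ne'
  have h0 : ∑ x ∈ X, (cen X - x) = 0 := by
    rw [Finset.sum_sub_distrib, Finset.sum_const, cen, ← Nat.cast_smul_eq_nsmul ℝ, smul_smul,
      mul_inv_cancel₀ hN, one_smul, sub_self]
  have h1 : ∀ x, dist z x ^ 2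
      = dist z (cen X) ^ 2 + 2 * inner ℝ (z - cen X) (cen X - x) + dist (cen X) x ^ 2 := by
    intro x
    rw [dist_eq_norm, dist_eq_norm, dist_eq_norm]
    have : z - x = (z - cen X) + (cen X - x) := by abel
    rw [this, norm_add_sq_real]
  rw [Finset.sum_congr rfl (fun x _ => h1 x)]
  rw [Finset.sum_add_distrib, Finset.sum_add_distrib, ← Finset.mul_sum, ← inner_sum, h0,
    inner_zero_right, Finset.sum_const, nsmul_eq_mul]
  ring

theorem fix_cen {n : ℕ} (X : Finset (En n)) (hX : X.Nonempty) (f : En n ≃ᵢ En n)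
    (hf : f '' (X : Set (En n)) = X) : f (cen X) = cen X := by
  classical
  have himg : X.image f = X := by
    apply Finset.coe_injective
    rw [Finset.coe_image, hf]
  have h1 : ∑ x ∈ X, dist (f (cen X)) x ^ 2 = ∑ x ∈ X, dist (cen X) x ^ 2 := by
    have e : ∑ x ∈ X.image f, dist (f (cen X)) x ^ 2 = ∑ x ∈ X, dist (f (cen X)) (f x) ^ 2 :=
      Finset.sum_image (fun a _ b _ h => f.injective h)
    rw [himg] at e
    rw [e]
    simp only [f.dist_eq]
  have h2 := sum_sq X hX (f (cen X))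
  rw [h1] at h2
  have hN : (0 : ℝ) < X.card := by exact_mod_cast Finset.card_pos.2 hX
  have h3 : dist (f (cen X)) (cen X) ^ 2 = 0 := by nlinarith
  exact dist_eq_zero.1 (pow_eq_zero_iff (two_ne_zero)|>.1 h3)

theorem transitive_sphere {n : ℕ} (X : Finset (En n)) (hT : Transitive X) :
    ∃ ρ : ℝ, ∀ x ∈ X, dist x (cen X) = ρ := by
  rcases X.eq_empty_or_nonempty with h | ⟨x0, hx0⟩
  · exact ⟨0, fun x hx => by simp [h] at hx⟩
  · refine ⟨dist x0 (cen X), fun y hy => ?_⟩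
    obtain ⟨f, hf, hxy⟩ := hT x0 hx0 y hy
    rw [← hxy, ← fix_cen X ⟨x0, hx0⟩ f hf, f.dist_eq, fix_cen X ⟨x0, hx0⟩ f hf]

theorem spherical_of_subtransitive {d : ℕ} (A : Finset (En d)) (h : Subtransitive A) :
    Spherical A := by
  obtain ⟨n, X, g, hT, hg, hX⟩ := h
  obtain ⟨ρ, hρ⟩ := transitive_sphere X hT
  exact ⟨n, g, cen X, ρ, hg, fun a ha => hρ _ (hX a ha)⟩

end P058
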